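import Vale.Agent.P366.H745.CH.Mink
import Vale.Agent.P366.H707.L.EqShell
import Vale.Agent.P366.H375.CH.Sup

/-! Equality in Minkowski's inequality: the body is a round ball. -/

open MeasureTheory Metric Filter Topology Set
open scoped ContDiff ENNReal

noncomputable section
namespace Vale.Agent.H353G

open Vale.Agent.P366 (pd E)
open Vale.Agent.P366.CH
open Vale.Agent.P366.H353.N
open Vale.Agent.P366.Kerr (NullCone)
open Vale.Agent.P366.KSN (Y dts sg Ms)
open Vale.Agent.P366.Convex (IsSupport)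
open Vale.Agent.P366

variable {n : ℕ} {C : NullCone n} {ρ : ℝ}

/-- Equality in Minkowski's inequality. -/
theorem mink_body_eq [Fact (3 ≤ n)] (hU : ∀ x, x ≠ 0 → C.U x = ρ)
    (hle : SI (fun x => sg C.H (C.U x) x) / (2 * ((n : ℝ) - 1) * om n) ≤
      1 / 2 * (SI (fun x => dts C.H (C.U x) x) / om n) ^ (((n : ℝ) - 2) / ((n : ℝ) - 1))) :
    ∃ (k : ℝ) (c : E n), ∀ x, x ≠ 0 → C.H x = k * ‖x‖ + ∑ i, c i * x i := by
  have hn : (3 : ℝ) ≤ n := by exact_mod_cast Fact.out (p := 3 ≤ n)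
  have hom : 0 < om n := om_pos
  have hc : 2 * ((n : ℝ) - 1) * om n ≠ 0 := by
    have : 0 < (n : ℝ) - 1 := by linarith
    positivity
  have h0 := le_antisymm hle (mink_body hU)
  rw [div_eq_iff hc] at h0
  obtain ⟨T, hTA, hTb, -⟩ := toTen C.toDat
  have hb : ∀ y : E n, y ≠ 0 → ∀ i, T.b y i = 0 := by
    intro y hy i
    rw [hTb]
    exact b_zero hU hy i
  have hq : ∀ x : E n, ‖x‖ = 1 → sg C.H (C.U x) x =
      (1 - ∑ i, T.b x i ^ 2) * H353.N.tr (T.A x) -
      2 * (∑ i, ∑ j, T.A x i j * pd i (fun y => T.b y j) x) + 2 * qf (T.A x) (T.b x) (T.b x) := by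
    intro x hx
    have hx0 := ne_zero_of_one hx
    have e1 : ∀ i j, pd i (fun y => T.b y j) x = 0 := fun i j => by
      rw [pd_congr' (f := fun _ => 0) (fun z hz => hb z hz j) hx0, Vale.Agent.P366.pd_const]
    have e2 : T.b x = 0 := funext fun i => hb x hx0 i
    have e3 : H353.N.tr (T.A x) = sg C.H (C.U x) x := by
      rw [hTA]
      exact H353.N.X3.tr_A C.toDat hx
    simp only [e1, e2, e3]
    simp [qf]
  have he0 : Shell.e0 (0 : Fin n → ℝ) = 1 := by
    unfold Shell.e0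
    simp
  have h1 : SI C.toDat.dt = SI (fun x => dts C.H (C.U x) x) :=
    SI_congr fun x hx => KSL.toDat_dt C hx
  have h2 : SI (fun x => sg C.H (C.U x) x * (Shell.e0 (0 : Fin n → ℝ) +
      ∑ i, (0 : Fin n → ℝ) i * x i)) =
      1 / 2 * (SI C.toDat.dt / om n) ^ (((n : ℝ) - 2) / ((n : ℝ) - 1)) *
        (2 * ((n : ℝ) - 1) * om n) := by
    rw [h1, ← h0, he0]
    refine SI_congr fun x _ => ?_
    simp
  obtain ⟨r, -, p, hp⟩ := Shell.bm_round C.toDat T hTA hTb (q := fun x => sg C.H (C.U x) x) hq 0 h2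
  exact Shell.H_round C.toDat hp

/-- The same for the body with the support function `h`. -/
theorem sup_ball [Fact (3 ≤ n)] {h : E n → ℝ} (hh : IsSupport h)
    (hle : SI (fun x => sg (supC hh).H ((supC hh).U x) x) / (2 * ((n : ℝ) - 1) * om n) ≤
      1 / 2 * (SI (fun x => dts (supC hh).H ((supC hh).U x) x) / om n) ^
        (((n : ℝ) - 2) / ((n : ℝ) - 1))) :
    ∃ (r : ℝ) (c : E n), ∀ x, Stmt.len x = 1 → h x = r + ∑ i, c i * x i := by
  obtain ⟨k, c, hc⟩ := mink_body_eq (C := supC hh) (ρ := 1) (fun x _ => rfl) hle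
  refine ⟨k + 1, c, fun x hx => ?_⟩
  have hx1 : ‖x‖ = 1 := hx
  have h1 := hc x (ne_zero_of_one hx1)
  have h2 : (supC hh).H x = h x - ‖x‖ := rfl
  rw [h2, hx1] at h1
  linarith

/-- The surface in the case of equality. -/
theorem mink_body_surf [Fact (3 ≤ n)] (hU : ∀ x, x ≠ 0 → C.U x = ρ)
    (hle : SI (fun x => sg C.H (C.U x) x) / (2 * ((n : ℝ) - 1) * om n) ≤
      1 / 2 * (SI (fun x => dts C.H (C.U x) x) / om n) ^ (((n : ℝ) - 2) / ((n : ℝ) - 1))) :
    ∃ (r : ℝ) (c : E n), 0 < r ∧ ∀ x : E n, ‖x‖ = 1 → ∀ i,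
      pd i C.H x + C.U x * x i = c i + r * x i := by
  have hn : (3 : ℝ) ≤ n := by exact_mod_cast Fact.out (p := 3 ≤ n)
  have hom : 0 < om n := om_pos
  have hc : 2 * ((n : ℝ) - 1) * om n ≠ 0 := by
    have : 0 < (n : ℝ) - 1 := by linarith
    positivity
  have h0 := le_antisymm hle (mink_body hU)
  rw [div_eq_iff hc] at h0
  obtain ⟨T, hTA, hTb, -⟩ := toTen C.toDat
  have hb : ∀ y : E n, y ≠ 0 → ∀ i, T.b y i = 0 := by
    intro y hy i
    rw [hTb]
    exact b_zero hU hy i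
  have hq : ∀ x : E n, ‖x‖ = 1 → sg C.H (C.U x) x =
      (1 - ∑ i, T.b x i ^ 2) * H353.N.tr (T.A x) -
      2 * (∑ i, ∑ j, T.A x i j * pd i (fun y => T.b y j) x) + 2 * qf (T.A x) (T.b x) (T.b x) := by
    intro x hx
    have hx0 := ne_zero_of_one hx
    have e1 : ∀ i j, pd i (fun y => T.b y j) x = 0 := fun i j => by
      rw [pd_congr' (f := fun _ => 0) (fun z hz => hb z hz j) hx0, Vale.Agent.P366.pd_const]
    have e2 : T.b x = 0 := funext fun i => hb x hx0 i
    have e3 : H353.N.tr (T.A x) = sg C.H (C.U x) x := by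
      rw [hTA]
      exact H353.N.X3.tr_A C.toDat hx
    simp only [e1, e2, e3]
    simp [qf]
  have he0 : Shell.e0 (0 : Fin n → ℝ) = 1 := by
    unfold Shell.e0
    simp
  have h1 : SI C.toDat.dt = SI (fun x => dts C.H (C.U x) x) :=
    SI_congr fun x hx => KSL.toDat_dt C hx
  have h2 : SI (fun x => sg C.H (C.U x) x * (Shell.e0 (0 : Fin n → ℝ) +
      ∑ i, (0 : Fin n → ℝ) i * x i)) =
      1 / 2 * (SI C.toDat.dt / om n) ^ (((n : ℝ) - 2) / ((n : ℝ) - 1)) *
        (2 * ((n : ℝ) - 1) * om n) := by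
    rw [h1, ← h0, he0]
    refine SI_congr fun x _ => ?_
    simp
  obtain ⟨r, hr, p, hp⟩ :=
    Shell.bm_round C.toDat T hTA hTb (q := fun x => sg C.H (C.U x) x) hq 0 h2
  refine ⟨r, WithLp.toLp 2 fun i => p i.succ, hr, fun x hx i => ?_⟩
  have hx0 := ne_zero_of_one hx
  have h3 := hp x hx0
  unfold Shell.bm at h3
  rw [Shell.phi_zero hx0, neg_zero, Shell.bst_zero_eq] at h3
  have h4 := congrFun h3 i.succ
  have h5 : Vale.Agent.P366.Nc i x = x i := by
    have := Shell.norm_Nc i hx0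
    rw [hx, one_mul] at this
    exact this
  rw [Shell.surf_succ, h5] at h4
  have h6 : (p + r • Shell.rd x) i.succ = p i.succ + r * x i := by
    show p i.succ + r * Shell.rd x i.succ = _
    rw [Shell.rd_succ, h5]
  rw [h6] at h4
  exact h4

/-- Equality in Minkowski's inequality for the body with the support function `h`: a round ball of
positive radius. -/
theorem sup_ball_pos [Fact (3 ≤ n)] {h : E n → ℝ} (hh : IsSupport h)
    (hle : SI (fun x => sg (supC hh).H ((supC hh).U x) x) / (2 * ((n : ℝ) - 1) * om n) ≤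
      1 / 2 * (SI (fun x => dts (supC hh).H ((supC hh).U x) x) / om n) ^
        (((n : ℝ) - 2) / ((n : ℝ) - 1))) :
    ∃ (c : E n) (r : ℝ), 0 < r ∧ ∀ x, Stmt.len x = 1 → h x = r + ∑ i, c i * x i := by
  obtain ⟨r, c, hr, hc⟩ := mink_body_surf (C := supC hh) (ρ := 1) (fun x _ => rfl) hle
  refine ⟨c, r, hr, fun x hx => ?_⟩
  have hx1 : ‖x‖ = 1 := hx
  have hx0 := ne_zero_of_one hx1
  have hxx : ∑ i, x i * x i = 1 := sum_mul_self hx1
  rw [← sup_euler hh hx0]
  have e : ∀ i, x i * pd i h x = c i * x i + r * (x i * x i) := by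
    intro i
    have h1 := hc x hx1 i
    have h2 : pd i (supC hh).H x = pd i h x - x i / ‖x‖ := supH_pd hh hx0 i
    have h3 : (supC hh).U x = 1 := rfl
    rw [h2, h3, hx1, div_one, one_mul, sub_add_cancel] at h1
    rw [h1]
    ring
  rw [Finset.sum_congr rfl fun i _ => e i, Finset.sum_add_distrib, ← Finset.mul_sum, hxx]
  ring

/-- The interior of a round ball in terms of its support function. -/
theorem ball_iff {c z : E n} {r : ℝ} (hr : 0 < r) {h : E n → ℝ}
    (hh : ∀ x, Stmt.len x = 1 → h x = r + ∑ i, c i * x i) :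
    (∀ x, Stmt.len x = 1 → ∑ i, x i * z i < h x) ↔ Stmt.len (z - c) < r := by
  have key : ∀ x : E n, ∑ i, x i * z i = ∑ i, c i * x i + inner ℝ (z - c) x := by
    intro x
    rw [PiLp.inner_apply, ← Finset.sum_add_distrib]
    refine Finset.sum_congr rfl fun i _ => ?_
    simp only [PiLp.sub_apply, RCLike.inner_apply, conj_trivial]
    ring
  constructor
  · intro hz
    by_cases h0 : z - c = 0
    · rw [h0]
      show ‖(0 : E n)‖ < r
      rw [norm_zero]
      exact hr
    · have hp : 0 < ‖z - c‖ := norm_pos_iff.2 h0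
      obtain ⟨x, hx⟩ : ∃ x : E n, x = ‖z - c‖⁻¹ • (z - c) := ⟨_, rfl⟩
      have hx1 : Stmt.len x = 1 := by
        show ‖x‖ = 1
        rw [hx, norm_smul, norm_inv, norm_norm, inv_mul_cancel₀ hp.ne']
      have h1 := hz x hx1
      rw [hh x hx1, key] at h1
      have h2 : inner ℝ (z - c) x = ‖z - c‖ := by
        rw [hx, inner_smul_right, real_inner_self_eq_norm_sq]
        field_simp
      rw [h2] at h1
      show ‖z - c‖ < r
      linarith
  · intro hz x hx
    rw [hh x hx, key]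
    have h1 : inner ℝ (z - c) x ≤ ‖z - c‖ * ‖x‖ := real_inner_le_norm _ _
    have h2 : ‖x‖ = 1 := hx
    rw [h2, mul_one] at h1
    have h3 : ‖z - c‖ < r := hz
    linarith

end Vale.Agent.H353G
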