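import Vale.Agent.P366.H353.CG.Theta
import Vale.Agent.P366.H707.G.Field
import Vale.Agent.P366.H745.CH.Energy
import Vale.Agent.P366.H896.G.Far

/-! Metrics `g = δ + F df ⊗ df`: smoothness of the flux field and the boundary term. -/

open MeasureTheory Metric Filter Topology Set
open scoped ContDiff ENNReal

noncomputable section
namespace Vale.Agent.H353G
open Vale.Agent.P366.Stmt
open Vale.Agent.P366.T2 (HP)
open Vale.Agent.H45G (Lev lap tt hp smooth_pd diffAt pd_eq_of_eqOn thetaPlus_congr)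
open Vale.Agent.P366.FG
open Vale.Agent.P366.CF (QZ)
open Vale.Agent.P366.CH
open Vale.Agent.P366.Kerr (NullCone)
open Vale.Agent.P366.Stmt.CLt (dsum up_rank)

variable {n : ℕ} {D : Exterior n} {f F u : E n → ℝ} {Y : Fin n → E n → ℝ}

/-- The determinant is positive. -/
lemma wpos (hg : ∀ x, 0 ≤ D.F x → ∀ i j, D.g x i j = lvlMetric f F x i j) {x : E n}
    (hx : 0 ≤ D.F x) : 0 < wsq f F x := by
  by_cases h0 : (fun i => pd i f x) = 0
  · unfold wsq
    have : ∀ i, pd i f x = 0 := fun i => congrFun h0 i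
    simp [this]
  · have h1 := (D.pos x hx).dotProduct_mulVec_pos h0
    obtain ⟨s, hs⟩ : ∃ s, s = ∑ i, pd i f x ^ 2 := ⟨_, rfl⟩
    have hs0 : 0 < s := by
      have h3 : 0 ≤ s := hs ▸ Finset.sum_nonneg fun i _ => sq_nonneg _
      refine lt_of_le_of_ne h3 fun h4 => h0 ?_
      rw [hs] at h4
      funext i
      have h5 := (Finset.sum_eq_zero_iff_of_nonneg (fun i _ => sq_nonneg _)).1 h4.symm i
        (Finset.mem_univ i)
      exact pow_eq_zero_iff (two_ne_zero) |>.1 h5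
    have e : star (fun i => pd i f x) ⬝ᵥ (mat D.g x).mulVec (fun i => pd i f x) =
        s * wsq f F x := by
      show ∑ i, star (pd i f x) * ∑ j, D.g x i j * pd j f x = _
      simp only [hg x hx, star_trivial, lvlMetric]
      have e1 : ∀ i, ∑ j, ((if i = j then (1 : ℝ) else 0) + F x * pd i f x * pd j f x) *
          pd j f x = pd i f x + F x * pd i f x * s := by
        intro i
        have e2 : ∀ j, ((if i = j then (1 : ℝ) else 0) + F x * pd i f x * pd j f x) *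
            pd j f x = (if i = j then pd j f x else 0) + F x * pd i f x * pd j f x ^ 2 :=
          fun j => by split_ifs <;> ring
        simp only [e2, Finset.sum_add_distrib, Finset.sum_ite_eq, Finset.mem_univ, if_true,
          ← Finset.mul_sum, ← hs]
      simp only [e1]
      have e3 : ∀ i, pd i f x * (pd i f x + F x * pd i f x * s) =
          (1 + F x * s) * pd i f x ^ 2 := fun i => by ring
      simp only [e3, ← Finset.mul_sum, ← hs]
      unfold wsq
      rw [← hs]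
      ring
    rw [e] at h1
    exact (mul_pos_iff_of_pos_left hs0).1 h1

lemma one_ww (x : E n) : 1 + ww f F x = wsq f F x := rfl

lemma wsq_sm (hf : Smooth f) (hF : Smooth F) : Smooth (wsq f F) := by
  have h1 : Smooth fun x => ∑ i, pd i f x ^ 2 := ContDiff.sum fun i _ =>
    ContDiff.pow (smooth_pd hf i) 2
  exact ContDiff.add contDiff_const (ContDiff.mul hF h1)

lemma up_cd {x : E n} (hx : 0 ≤ D.F x) (i j : Fin n) : ContDiffAt ℝ ∞ (up D.g i j) x :=
  Vale.Agent.P366.Bridge.contDiffAt_inv_entry (A := mat D.g)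
    (fun a b => ((D.smooth a b).1).contDiffAt) (D.pos x hx).det_pos.ne' i j

/-- Smoothness of the momentum field. -/
lemma QZw_cd (hf : Smooth f) (hF : Smooth F)
    (hg : ∀ x, 0 ≤ D.F x → ∀ i j, D.g x i j = lvlMetric f F x i j)
    {Z : Fin n → E n → ℝ} {x : E n} (hx : 0 ≤ D.F x) (hZ : ∀ j, ContDiffAt ℝ ∞ (Z j) x)
    (i : Fin n) : ContDiffAt ℝ ∞ (QZ (ww f F) D.g D.K Z i) x := by
  have hup := up_cd hx
  have htr : ContDiffAt ℝ ∞ (tr D.g D.K) x :=
    ContDiffAt.sum fun a _ => ContDiffAt.sum fun b _ =>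
      (hup a b).mul ((D.smooth a b).2.contDiffAt)
  have hm : ∀ i j, ContDiffAt ℝ ∞ (fun y => momT D.g D.K y i j) x := fun i j =>
    ((D.smooth i j).2.contDiffAt).sub (htr.mul ((D.smooth i j).1.contDiffAt))
  have hs : ContDiffAt ℝ ∞ (fun y => √(1 + ww f F y)) x :=
    ((wsq_sm hf hF).contDiffAt).sqrt (wpos hg hx).ne'
  exact hs.mul (ContDiffAt.sum fun k _ => (hup i k).mul (ContDiffAt.sum fun j _ =>
    (hm k j).mul (hZ j)))

lemma Zu_cd (hf : Smooth f) (hu : Smooth u) {x : E n} (hx : 0 ≤ D.F x) (j : Fin n) :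
    ContDiffAt ℝ ∞ (Zu D.g f u j) x :=
  hu.contDiffAt.mul (ContDiffAt.sum fun k _ => (up_cd hx j k).mul
    (smooth_pd hf k).contDiffAt)

lemma X0_cd (hf : Smooth f) (hF : Smooth F)
    (hg : ∀ x, 0 ≤ D.F x → ∀ i j, D.g x i j = lvlMetric f F x i j) {x : E n}
    (hx : 0 ≤ D.F x) (i : Fin n) : ContDiffAt ℝ ∞ (X0 D.g f F i) x :=
  ContDiffAt.div (ContDiffAt.div_const (ContDiffAt.sum fun j _ =>
    ((smooth_pd (D.smooth i j).1 j).contDiffAt).sub
      ((smooth_pd (D.smooth j j).1 i).contDiffAt)) 2)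
    (wsq_sm hf hF).contDiffAt (wpos hg hx).ne'

lemma X2_cd (hf : Smooth f) (hF : Smooth F) (hu : Smooth u)
    (hg : ∀ x, 0 ≤ D.F x → ∀ i j, D.g x i j = lvlMetric f F x i j) {x : E n}
    (hx : 0 ≤ D.F x) (i : Fin n) : ContDiffAt ℝ ∞ (X2 f F u i) x := by
  have h1 : ContDiffAt ℝ ∞ (cf f i) x := by
    refine ((smooth_pd hf i).contDiffAt.mul (ContDiffAt.sum fun j _ =>
      (smooth_pd (smooth_pd hf j) j).contDiffAt)).sub (ContDiffAt.sum fun j _ => ?_)
    exact (smooth_pd (smooth_pd hf j) i).contDiffAt.mul (smooth_pd hf j).contDiffAt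
  exact ((hu.contDiffAt.pow 2).mul h1).div (contDiffAt_const.mul (wsq_sm hf hF).contDiffAt)
    (mul_ne_zero two_ne_zero (wpos hg hx).ne')

/-- **Smoothness of the flux field without `Y`.** -/
theorem XG_cd (hf : Smooth f) (hF : Smooth F) (hu : Smooth u)
    (hg : ∀ x, 0 ≤ D.F x → ∀ i j, D.g x i j = lvlMetric f F x i j) {x : E n}
    (hx : 0 ≤ D.F x) (i : Fin n) : ContDiffAt ℝ ∞ (XG D.g D.K f F u i) x :=
  ((X0_cd hf hF hg hx i).sub (QZw_cd hf hF hg hx (fun j => Zu_cd hf hu hx j) i)).sub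
    (X2_cd hf hF hu hg hx i)

/-- **Smoothness of the flux field.** -/
theorem XY_cd (hf : Smooth f) (hF : Smooth F) (hu : Smooth u) (hY : ∀ i, Smooth (Y i))
    (hg : ∀ x, 0 ≤ D.F x → ∀ i j, D.g x i j = lvlMetric f F x i j) {x : E n}
    (hx : 0 ≤ D.F x) (i : Fin n) : ContDiffAt ℝ ∞ (XY D.g D.K f F u Y i) x :=
  (XG_cd hf hF hu hg hx i).sub ((QZw_cd hf hF hg hx (fun j => (hY j).contDiffAt) i).div_const 2)

/-! ### Contractions at a level set -/

variable {ν : Fin n → ℝ} {a r : ℝ} {x : E n}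

/-- The momentum field of a normal vector. -/
lemma QZ_nor {W : E n → ℝ} {g K : Field n} {Z : Fin n → E n → ℝ} {w c : ℝ}
    (one : ∑ i, ν i ^ 2 = 1) (hw : 0 < 1 + w) (hW : W x = w)
    (hg : ∀ i j, g x i j = (if i = j then 1 else 0) + w * ν i * ν j)
    (hZ : ∀ j, Z j x = c * ν j) :
    ∑ i, QZ W g K Z i x * ν i = -(√(1 + w) * c * tt ν (K x)) := by
  have hup := up_rank one hw hg
  have hup1 : ∀ k, ∑ i, up g i k x * ν i = ν k / (1 + w) := by
    intro k
    have e : ∀ i, up g i k x * ν i = (if i = k then ν i else 0) -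
        w / (1 + w) * ν k * ν i ^ 2 := by
      intro i; rw [hup]; split_ifs <;> ring
    simp only [e, Finset.sum_sub_distrib, Finset.sum_ite_eq', Finset.mem_univ, if_true,
      ← Finset.mul_sum, one]
    field_simp
    ring
  have hone : ∑ i, ν i * ν i = 1 := by
    rw [← one]; exact Finset.sum_congr rfl fun i _ => by ring
  obtain ⟨kn, hkn⟩ : ∃ kn, kn = ∑ i, ∑ j, ν i * ν j * K x i j := ⟨_, rfl⟩
  obtain ⟨kt, hkt⟩ : ∃ kt, kt = ∑ i, K x i i := ⟨_, rfl⟩
  have htr : tr g K x = kt - w / (1 + w) * kn := by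
    unfold tr
    simp only [hup]
    rw [dsum, hkn, hkt]
  have e1 : ∑ i, QZ W g K Z i x * ν i =
      √(1 + w) * ∑ k, (∑ i, up g i k x * ν i) * ∑ j, momT g K x k j * Z j x := by
    unfold QZ
    rw [hW]
    simp only [Finset.mul_sum, Finset.sum_mul]
    rw [Finset.sum_comm]
    refine Finset.sum_congr rfl fun k _ => ?_
    rw [Finset.sum_comm]
    refine Finset.sum_congr rfl fun i _ => ?_
    refine Finset.sum_congr rfl fun j _ => by ring
  have e2 : ∀ k, (∑ i, up g i k x * ν i) * ∑ j, momT g K x k j * Z j x =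
      c / (1 + w) * ((∑ j, ν k * ν j * K x k j) -
        (kt - w / (1 + w) * kn) * ((1 + w) * (ν k * ν k))) := by
    intro k
    rw [hup1]
    have e3 : ∀ j, momT g K x k j * Z j x = c * (ν j * K x k j) -
        (kt - w / (1 + w) * kn) * c * ((if k = j then ν j else 0) + w * ν k * (ν j * ν j)) := by
      intro j
      unfold momT
      rw [htr, hg, hZ]
      split_ifs <;> ring
    simp only [e3, Finset.sum_sub_distrib, ← Finset.mul_sum, Finset.sum_add_distrib,
      Finset.sum_ite_eq, Finset.mem_univ, if_true, hone]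
    have e4 : ∑ j, ν k * ν j * K x k j = ν k * ∑ j, ν j * K x k j := by
      rw [Finset.mul_sum]
      exact Finset.sum_congr rfl fun j _ => by ring
    rw [e4]
    ring
  rw [e1]
  simp only [e2, ← Finset.mul_sum, Finset.sum_sub_distrib, hone, ← hkn]
  unfold tt
  rw [← hkn, ← hkt]
  field_simp
  ring

/-- The first part of the flux field. -/
lemma X0_nor {g : Field n} (hf : Smooth f) (hF : Smooth F) (h : Lev f r ν a x)
    (hpg : ∀ k i j, pd k (fun z => g z i j) x =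
      pd k (fun z => (if i = j then 1 else 0) + F z * pd i f z * pd j f z) x) :
    ∑ i, X0 g f F i x * ν i = F x * a ^ 2 * (((n : ℝ) - 1) / r) / (2 * wsq f F x) := by
  have hone : ∑ i, ν i * ν i = 1 := by
    rw [← h.one]; exact Finset.sum_congr rfl fun i _ => by ring
  obtain ⟨q, hq⟩ : ∃ q, q = ∑ j, ν j * pd j F x := ⟨_, rfl⟩
  obtain ⟨fn, hfn⟩ : ∃ fn, fn = ∑ i, ∑ j, ν i * ν j * pd i (pd j f) x := ⟨_, rfl⟩
  have hL := h.snd
  rw [← hfn] at hL
  have e1 : ∀ i, ∑ j, (pd j (fun y => g y i j) x - pd i (fun y => g y j j) x) =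
      a ^ 2 * (q * ν i) + F x * a * (lap f x * ν i) - a ^ 2 * pd i F x -
        F x * a * ∑ j, ν j * pd i (pd j f) x := by
    intro i
    have e2 : ∀ j, pd j (fun y => g y i j) x - pd i (fun y => g y j j) x =
        a ^ 2 * ν i * (ν j * pd j F x) + F x * a * (ν i * pd j (pd j f) x) -
          a ^ 2 * pd i F x * (ν j * ν j) - F x * a * (ν j * pd i (pd j f) x) := by
      intro j
      rw [hpg, hpg, pd_gq hf hF, pd_gq hf hF, h.fst, h.fst,
        Vale.Agent.H45G.sym2 hf j i]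
      ring
    simp only [e2, Finset.sum_add_distrib, Finset.sum_sub_distrib, ← Finset.mul_sum, hone, ← hq]
    unfold lap
    ring
  have e3 : ∀ i, X0 g f F i x * ν i = (a ^ 2 * q * (ν i * ν i) + F x * a * lap f x * (ν i * ν i) -
      a ^ 2 * (ν i * pd i F x) - F x * a * ∑ j, ν i * ν j * pd i (pd j f) x) /
        (2 * wsq f F x) := by
    intro i
    unfold X0
    rw [e1]
    have e4 : ∑ j, ν i * ν j * pd i (pd j f) x = ν i * ∑ j, ν j * pd i (pd j f) x := by
      rw [Finset.mul_sum]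
      exact Finset.sum_congr rfl fun j _ => by ring
    rw [e4, div_div]
    ring
  simp only [e3, ← Finset.sum_div, Finset.sum_sub_distrib, Finset.sum_add_distrib,
    ← Finset.mul_sum, hone, ← hq, ← hfn]
  congr 1
  have e5 : lap f x = ((n : ℝ) - 1) / r * a + fn := by linarith
  rw [e5]
  ring

/-- The third part of the flux field. -/
lemma X2_nor (h : Lev f r ν a x) :
    ∑ i, X2 f F u i x * ν i = u x ^ 2 * a ^ 2 * (((n : ℝ) - 1) / r) / (2 * wsq f F x) := by
  have hone : ∑ i, ν i * ν i = 1 := by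
    rw [← h.one]; exact Finset.sum_congr rfl fun i _ => by ring
  have hL := h.snd
  obtain ⟨fn, hfn⟩ : ∃ fn, fn = ∑ i, ∑ j, ν i * ν j * pd i (pd j f) x := ⟨_, rfl⟩
  rw [← hfn] at hL
  have e1 : ∀ i, X2 f F u i x * ν i = u x ^ 2 * (a * lap f x * (ν i * ν i) -
      a * ∑ j, ν i * ν j * pd i (pd j f) x) / (2 * wsq f F x) := by
    intro i
    unfold X2 cf hf lap
    simp only [h.fst]
    have e4 : ∑ j, ν i * ν j * pd i (pd j f) x = ν i * ∑ j, ν j * pd i (pd j f) x := by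
      rw [Finset.mul_sum]
      exact Finset.sum_congr rfl fun j _ => by ring
    have e5 : ∑ j, pd i (pd j f) x * (a * ν j) = a * ∑ j, ν j * pd i (pd j f) x := by
      rw [Finset.mul_sum]
      exact Finset.sum_congr rfl fun j _ => by ring
    rw [e4, e5]
    ring
  simp only [e1, ← Finset.sum_div, Finset.sum_sub_distrib, ← Finset.mul_sum, hone, ← hfn]
  congr 1
  have e5 : lap f x = ((n : ℝ) - 1) / r * a + fn := by linarith
  rw [e5]
  ring

/-! ### The boundary term -/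

variable {ι : Type} [Fintype ι] {C : ι → NullCone n}

/-- **The boundary term.** -/
theorem XY_bdr [Fact (3 ≤ n)] (hT : D.Trapped) (hB : Bodies D.F C) (hf : Smooth f)
    (hF : Smooth F) (hg : ∀ x, 0 ≤ D.F x → ∀ i j, D.g x i j = lvlMetric f F x i j)
    (hlev : ∀ k x y, ‖x‖ = 1 → ‖y‖ = 1 → f (bp (C k) x) = f (bp (C k) y))
    (k : ι) {x : E n} (hx : ‖x‖ = 1) {l : ℝ}
    (hl : (1 + u (bp (C k) x) * ∑ i, pd i f (bp (C k) x) * x i) ^ 2 ≤ l)
    (hY : ∀ i, Y i (bp (C k) x) = -(l * (x i / wsq f F (bp (C k) x)))) :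
    mc (C k) x / 2 ≤ ∑ i, XY D.g D.K f F u Y i (bp (C k) x) * x i := by
  have h3 := Fact.out (p := 3 ≤ n)
  have hn0 : 0 < (n : ℝ) - 1 := by
    have : (3 : ℝ) ≤ n := by exact_mod_cast h3
    linarith
  have hFs := D.dom.1
  have hFne := D.dom.2.1
  obtain ⟨ρ, hρ⟩ := hB.rad k
  obtain ⟨hmc, hL⟩ := lev_body (C k) hρ hf (hlev k) hx
  obtain ⟨b, hb, hLF⟩ := hB.lev levAll hFs hFne hx
  have hF0 := hB.bdr k x hx
  obtain ⟨p, hp⟩ : ∃ p, p = bp (C k) x := ⟨_, rfl⟩
  rw [← hp] at hL hLF hF0 hl hY ⊢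
  obtain ⟨a, ha⟩ : ∃ a, a = ∑ i, pd i f p * x i := ⟨_, rfl⟩
  rw [← ha] at hL hl
  have hr : ((n : ℝ) - 1) / (((n : ℝ) - 1) / mc (C k) x) = mc (C k) x := by
    rw [div_div_cancel₀ hn0.ne']
  have hw2 : wsq f F p = 1 + F p * a ^ 2 := by
    unfold wsq
    simp only [hL.fst, mul_pow]
    rw [← Finset.mul_sum, hL.one, mul_one]
  have hw := wpos hg hF0.ge
  rw [hw2] at hw
  have hgp : ∀ i j, D.g p i j = (if i = j then 1 else 0) + F p * pd i f p * pd j f p :=
    fun i j => hg p hF0.ge i j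
  have hpg : ∀ k i j, pd k (fun z => D.g z i j) p =
      pd k (fun z => (if i = j then 1 else 0) + F z * pd i f z * pd j f z) p := by
    intro k i j
    refine pd_eq_of_eqOn hFs hFne (fun y hy => hg y hy i j) hF0.ge
      (diffAt (D.smooth i j).1 _) ?_ k
    have : Smooth fun z => (if i = j then (1 : ℝ) else 0) + F z * pd i f z * pd j f z :=
      ContDiff.add contDiff_const (ContDiff.mul (ContDiff.mul hF (smooth_pd hf i))
        (smooth_pd hf j))
    exact diffAt this _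
  have hth := hT _ hF0
  rw [theta_levq D.K hf hF hb hL hLF hw hgp hpg, hr] at hth
  have hgw : ∀ i j, D.g p i j = (if i = j then 1 else 0) + (F p * a ^ 2) * x i * x j :=
    fun i j => by rw [hgp, hL.fst, hL.fst]; ring
  have hww : ww f F p = F p * a ^ 2 := by
    have := one_ww (f := f) (F := F) p
    linarith
  have hup1 : ∀ i, grad D.g f i p = a / (1 + F p * a ^ 2) * x i := by
    intro i
    unfold grad
    have e : ∀ j, up D.g i j p * pd j f p = (if i = j then a * x j else 0) -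
        F p * a ^ 2 / (1 + F p * a ^ 2) * a * x i * x j ^ 2 := by
      intro j; rw [up_rank hL.one hw hgw, hL.fst]; split_ifs <;> ring
    simp only [e, Finset.sum_sub_distrib, Finset.sum_ite_eq, Finset.mem_univ, if_true,
      ← Finset.mul_sum, hL.one]
    have hwn : (1 + F p * a ^ 2) ≠ 0 := hw.ne'
    rw [mul_one, eq_comm, div_mul_eq_mul_div, div_eq_iff hwn, sub_mul,
      div_mul_eq_mul_div, div_mul_eq_mul_div, div_mul_cancel₀ _ hwn]
    ring
  have q1 := QZ_nor (K := D.K) (Z := Zu D.g f u) (c := u p * (a / (1 + F p * a ^ 2)))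
    hL.one hw hww hgw fun j => by unfold Zu; rw [hup1]; ring
  have q2 := QZ_nor (K := D.K) (Z := Y) (c := -(l / (1 + F p * a ^ 2)))
    hL.one hw hww hgw fun j => by rw [hY, hw2]; ring
  have q0 := X0_nor hf hF hL hpg
  have q3 := X2_nor (u := u) (F := F) hL
  rw [hr, hw2] at q0 q3
  have e1 : ∑ i, XY D.g D.K f F u Y i p * x i = ∑ i, X0 D.g f F i p * x i -
      ∑ i, QZ (ww f F) D.g D.K (Zu D.g f u) i p * x i - ∑ i, X2 f F u i p * x i -
      (∑ i, QZ (ww f F) D.g D.K Y i p * x i) / 2 := by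
    rw [Finset.sum_div, ← Finset.sum_sub_distrib, ← Finset.sum_sub_distrib,
      ← Finset.sum_sub_distrib]
    refine Finset.sum_congr rfl fun i _ => ?_
    unfold XY XG
    ring
  rw [e1, q0, q1, q2, q3]
  obtain ⟨w, hwd⟩ : ∃ w, w = √(1 + F p * a ^ 2) := ⟨_, rfl⟩
  have hw0 : 0 < w := hwd ▸ Real.sqrt_pos.2 hw
  have hww2 : w ^ 2 = 1 + F p * a ^ 2 := by rw [hwd]; exact Real.sq_sqrt hw.le
  rw [← hwd] at hth ⊢
  rw [← hww2]
  obtain ⟨H, hH⟩ : ∃ H, H = mc (C k) x := ⟨_, rfl⟩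
  obtain ⟨τ, hτ⟩ : ∃ τ, τ = tt (fun i => x i) (D.K p) := ⟨_, rfl⟩
  rw [← hH] at hth hmc ⊢
  rw [← hτ] at hth ⊢
  have hFa : F p * a ^ 2 = w ^ 2 - 1 := by linarith
  rw [hFa]
  obtain ⟨s, hs⟩ : ∃ s, s = u p * a := ⟨_, rfl⟩
  rw [← hs] at hl
  have hus : u p ^ 2 * a ^ 2 = s ^ 2 := by rw [hs]; ring
  rw [hus]
  have hua : u p * (a / w ^ 2) = s / w ^ 2 := by rw [hs]; ring
  rw [hua]
  have h4 : 0 ≤ l - 2 * s := by nlinarith [sq_nonneg (1 + s), sq_nonneg s]
  have h5 : 0 ≤ (l - 2 * s) * -(H / w + τ) := mul_nonneg h4 (by linarith)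
  have h6 : 0 ≤ (l - (1 + s) ^ 2) * H := mul_nonneg (by linarith) hmc.le
  have e2 : (w ^ 2 - 1) * H / (2 * w ^ 2) - -(w * (s / w ^ 2) * τ) - s ^ 2 * H / (2 * w ^ 2) -
      -(w * -(l / w ^ 2) * τ) / 2 - H / 2 =
      ((l - 2 * s) * -(H / w + τ)) / (2 * w) + ((l - (1 + s) ^ 2) * H) / (2 * w ^ 2) := by
    field_simp
    ring
  have h7 : 0 ≤ ((l - 2 * s) * -(H / w + τ)) / (2 * w) + ((l - (1 + s) ^ 2) * H) / (2 * w ^ 2) :=
    add_nonneg (div_nonneg h5 (by positivity)) (div_nonneg h6 (by positivity))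
  linarith

end Vale.Agent.H353G
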