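import Vale.Agent.P366.H353.CF.Theta
import Vale.Agent.P366.H45.G5

/-! The metric `δ + q df ⊗ df`: the null expansion at a level set. -/

open MeasureTheory Metric Filter Topology Set
open scoped ContDiff ENNReal

noncomputable section
namespace Vale.Agent.H353G
open Vale.Agent.P366.Stmt
open Vale.Agent.P366.T2 (HP)
open Vale.Agent.H45G

variable {n : ℕ}

/-- The derivatives of the metric. -/
lemma pd_gq {f q : E n → ℝ} (hf : Smooth f) (hq : Smooth q) (k i j : Fin n) (x : E n) :
    pd k (fun z => (if i = j then 1 else 0) + q z * pd i f z * pd j f z) x =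
      pd k q x * pd i f x * pd j f x +
        q x * (pd k (pd i f) x * pd j f x + pd i f x * pd k (pd j f) x) := by
  have h1 := (HP.const k (if i = j then (1 : ℝ) else 0) x).add
    (((hp hq k x).mul (hp (smooth_pd hf i) k x)).mul (hp (smooth_pd hf j) k x))
  rw [h1.pd]
  ring

/-- The null expansion of a level set. -/
theorem theta_levq {f F q : E n → ℝ} {g : Field n} (K : Field n) (hf : Smooth f)
    (hq : Smooth q) {r a b : ℝ} (hb : 0 < b) {ν : Fin n → ℝ} {x : E n}
    (h : Lev f r ν a x) (hF : Lev F r ν b x) (hw : 0 < 1 + q x * a ^ 2)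
    (hg : ∀ i j, g x i j = (if i = j then 1 else 0) + q x * pd i f x * pd j f x)
    (hpg : ∀ k i j, pd k (fun z => g z i j) x =
      pd k (fun z => (if i = j then 1 else 0) + q z * pd i f z * pd j f z) x) :
    thetaPlus g K F x = ((n : ℝ) - 1) / r / √(1 + q x * a ^ 2) + tt ν (K x) := by
  have hone : ∑ i, ν i * ν i = 1 := by
    rw [← h.one]; exact Finset.sum_congr rfl fun i _ => by ring
  have hNd : ∃ N : Fin n → Fin n → ℝ, ∃ dw : Fin n → ℝ, (∀ i, ∑ j, N i j * ν j = 0) ∧
      (∑ i, N i i = ((n : ℝ) - 1) / r) ∧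
      ∀ k i j, pd k q x * (a * ν i) * (a * ν j) + q x * (pd k (pd i f) x * (a * ν j) +
        (a * ν i) * pd k (pd j f) x) =
        dw k * ν i * ν j + q x * a ^ 2 * (N k i * ν j + ν i * N k j) := by
    rcases eq_or_ne a 0 with ha | ha
    · refine ⟨fun i j => r⁻¹ * ((if i = j then 1 else 0) - ν i * ν j), fun _ => 0, fun i => ?_,
        ?_, fun k i j => ?_⟩
      · have e : ∀ j, r⁻¹ * ((if i = j then 1 else 0) - ν i * ν j) * ν j =
            r⁻¹ * ((if i = j then ν j else 0) - ν i * (ν j * ν j)) := by
          intro j; split_ifs <;> ring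
        simp only [e, ← Finset.mul_sum, Finset.sum_sub_distrib, Finset.sum_ite_eq,
          Finset.mem_univ, if_true, hone]
        ring
      · simp only [if_true, ← Finset.mul_sum, Finset.sum_sub_distrib, hone, Finset.sum_const,
          Finset.card_univ, Fintype.card_fin, nsmul_eq_mul, mul_one]
        ring
      · rw [ha]; ring
    · obtain ⟨p, hp'⟩ : ∃ p : Fin n → ℝ, ∀ k, p k = ∑ l, pd k (pd l f) x * ν l :=
        ⟨_, fun _ => rfl⟩
      refine ⟨fun i j => (pd i (pd j f) x - p i * ν j) / a, fun k => pd k q x * a ^ 2 +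
        2 * q x * a * p k, fun i => ?_, ?_, fun k i j => ?_⟩
      · have e : ∀ j, (pd i (pd j f) x - p i * ν j) / a * ν j =
            a⁻¹ * (pd i (pd j f) x * ν j - p i * (ν j * ν j)) := fun j => by
          field_simp
        simp only [e, ← Finset.mul_sum, Finset.sum_sub_distrib, hone, ← hp']
        ring
      · have e1 : ∑ i, ν i * p i = ∑ i, ∑ j, ν i * ν j * pd i (pd j f) x := by
          refine Finset.sum_congr rfl fun i _ => ?_
          rw [hp', Finset.mul_sum]
          exact Finset.sum_congr rfl fun j _ => by ring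
        have e : ∀ i, (pd i (pd i f) x - p i * ν i) / a = a⁻¹ * (pd i (pd i f) x - ν i * p i) :=
          fun i => by field_simp
        have h2 := h.snd
        unfold lap at h2
        simp only [e, ← Finset.mul_sum, Finset.sum_sub_distrib]
        rw [e1, h2]
        field_simp
      · field_simp
        ring
  obtain ⟨N, dw, hN0, hN1, hN2⟩ := hNd
  have key := Vale.Agent.P366.Stmt.CFt.theta_pt (g := g) (K := K) (F := F) (y := x) (ν := ν)
    (w := q x * a ^ 2) (a := b) (N := N) (dw := dw) h.one hw hb
    (fun i j => by rw [hg, h.fst, h.fst]; ring) hF.fst hN0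
    (fun k i j => by rw [hpg, pd_gq hf hq, h.fst, h.fst, hN2])
    (by
      rw [hN1]
      have h3 := hF.snd
      unfold lap at h3
      rw [h3]
      ring)
  rw [key, hN1]
  rfl

end Vale.Agent.H353G
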